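import Mathlib

/-!
# P038: the gap inequality (unweighted form)

Abstract inequality for two families of sets `B z, U z` under the two Hall conditions
(row condition `hR` and column condition `hC`).
-/

set_option linter.unusedSectionVars false

namespace P038.H162

open Finset

variable {V : Type*} [Fintype V] [DecidableEq V]

/-- closed out-neighbourhood of a set -/
def nb (N : V → Finset V) (S : Finset V) : Finset V := S.biUnion N

omit [Fintype V] in
theorem mem_nb {N : V → Finset V} {S : Finset V} {y : V} :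
    y ∈ nb N S ↔ ∃ x ∈ S, y ∈ N x := by
  simp [nb]

theorem nb_mono {N : V → Finset V} {S T : Finset V} (h : S ⊆ T) : nb N S ⊆ nb N T := by
  intro y hy
  rw [mem_nb] at hy ⊢
  obtain ⟨x, hx, hxy⟩ := hy
  exact ⟨x, h hx, hxy⟩

/-- column erosion, row `z` -/
def er (N : V → Finset V) (U : V → Finset V) (z : V) : Finset V :=
  univ.filter (fun y => ∀ s, z ∈ N s → y ∈ U s)

theorem mem_er {N U : V → Finset V} {z y : V} :
    y ∈ er N U z ↔ ∀ s, z ∈ N s → y ∈ U s := by
  simp [er]

def dfun (N : V → Finset V) (M W T : Finset V) : ℤ :=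
  (T.card : ℤ) - (((nb N T) \ M) \ W).card

theorem card_eq_sum (S : Finset V) : S.card = ∑ x : V, if x ∈ S then 1 else 0 := by
  simp

omit [Fintype V] [DecidableEq V] in
theorem pne (G : Finset V) : G.powerset.Nonempty := ⟨∅, by simp⟩

def dmax (N : V → Finset V) (G M W : Finset V) : ℤ :=
  G.powerset.sup' (pne G) (dfun N M W)

theorem le_dmax {N : V → Finset V} {G M W T : Finset V} (h : T ⊆ G) :
    dfun N M W T ≤ dmax N G M W :=
  Finset.le_sup' (dfun N M W) (by simpa using h)

theorem exists_dmax (N : V → Finset V) (G M W : Finset V) :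
    ∃ T, T ⊆ G ∧ dmax N G M W = dfun N M W T := by
  obtain ⟨T, hT, h⟩ := Finset.exists_mem_eq_sup' (pne G) (dfun N M W)
  exact ⟨T, by simpa using hT, h⟩

theorem dmax_mono (N : V → Finset V) (G M W : Finset V) (u : V) :
    dmax N G M W ≤ dmax N G M (insert u W) := by
  obtain ⟨T, hT, h⟩ := exists_dmax N G M W
  rw [h]
  refine le_trans ?_ (le_dmax hT)
  unfold dfun
  have : ((nb N T \ M) \ insert u W).card ≤ ((nb N T \ M) \ W).card :=
    Finset.card_le_card (by
      intro x hx
      simp only [mem_sdiff, mem_insert] at hx ⊢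
      tauto)
  omega

theorem dmax_succ (N : V → Finset V) (G M W : Finset V) (u : V) :
    dmax N G M (insert u W) ≤ dmax N G M W + 1 := by
  obtain ⟨T, hT, h⟩ := exists_dmax N G M (insert u W)
  rw [h]
  refine le_trans ?_ (add_le_add (le_dmax hT) le_rfl)
  unfold dfun
  have : ((nb N T \ M) \ W).card ≤ ((nb N T \ M) \ insert u W).card + 1 := by
    refine le_trans (Finset.card_le_card (t := insert u ((nb N T \ M) \ insert u W)) ?_)
      (Finset.card_insert_le _ _)
    intro x hx
    simp only [mem_sdiff, mem_insert] at hx ⊢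
    tauto
  omega

theorem dmax_const (N : V → Finset V) (G M W : Finset V) (u : V) (hu : u ∉ nb N G \ M) :
    dmax N G M (insert u W) = dmax N G M W := by
  apply le_antisymm _ (dmax_mono N G M W u)
  obtain ⟨T, hT, h⟩ := exists_dmax N G M (insert u W)
  rw [h]
  refine le_trans ?_ (le_dmax hT)
  unfold dfun
  have : ((nb N T \ M) \ W).card ≤ ((nb N T \ M) \ insert u W).card := by
    apply Finset.card_le_card
    intro x hx
    have h1 : x ≠ u := by
      rintro rfl
      apply hu
      simp only [mem_sdiff] at hx ⊢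
      exact ⟨nb_mono hT hx.1.1, hx.1.2⟩
    simp only [mem_sdiff, mem_insert] at hx ⊢
    tauto
  omega

theorem dmax_univ (N : V → Finset V) (G M : Finset V) :
    dmax N G M univ = G.card := by
  apply le_antisymm
  · obtain ⟨T, hT, h⟩ := exists_dmax N G M univ
    rw [h]
    unfold dfun
    have := Finset.card_le_card hT
    omega
  · refine le_trans ?_ (le_dmax (Finset.Subset.refl G))
    unfold dfun
    simp

theorem dmax_empty_nonneg (N : V → Finset V) (G M W : Finset V) :
    0 ≤ dmax N G M W := by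
  refine le_trans ?_ (le_dmax (Finset.empty_subset G))
  unfold dfun
  simp [nb]

theorem dmax_empty_zero (N : V → Finset V) (G M : Finset V)
    (h : ∀ T, T ⊆ G → T.card ≤ (nb N T \ M).card) : dmax N G M ∅ = 0 := by
  apply le_antisymm _ (dmax_empty_nonneg N G M ∅)
  obtain ⟨T, hT, h'⟩ := exists_dmax N G M ∅
  rw [h']
  unfold dfun
  have := h T hT
  simp only [Finset.sdiff_empty]
  omega

theorem ite_four {p1 p2 q1 q2 : Prop} [Decidable p1] [Decidable p2] [Decidable q1]
    [Decidable q2] (h1 : p1 → q1 ∨ q2) (h2 : p2 → q1 ∨ q2) (h3 : p1 → p2 → q1 ∧ q2) :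
    (if p1 then 1 else 0) + (if p2 then 1 else 0) ≤
      (if q1 then 1 else 0) + (if q2 then 1 else (0 : ℕ)) := by
  by_cases a : p1 <;> by_cases b : p2 <;> by_cases c : q1 <;> by_cases d : q2 <;>
    simp_all

/-- the exchange inequality (M) -/
theorem dmax_exch (N : V → Finset V) (P G B' β M W : Finset V) (u : V)
    (hP : P \ B' ⊆ G) (hG : Disjoint G B') (hB : nb N (P ∩ B') ⊆ M) (hβ : β ⊆ M)
    (huM : u ∉ M) (huW : u ∉ W) :
    dmax N P β (insert u W) + dmax N G M W ≤ dmax N P β W + dmax N G M (insert u W) := by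
  obtain ⟨T, hT, h1⟩ := exists_dmax N P β (insert u W)
  obtain ⟨T', hT', h2⟩ := exists_dmax N G M W
  rw [h1, h2]
  have hT1 : (T ∩ B') ∪ (T ∩ T') ⊆ P := by
    intro x hx
    simp only [mem_union, mem_inter] at hx
    rcases hx with hx | hx <;> exact hT hx.1
  have hT2 : T' ∪ (T \ B') ⊆ G := by
    intro x hx
    simp only [mem_union, mem_sdiff] at hx
    rcases hx with hx | hx
    · exact hT' hx
    · exact hP (by simp only [mem_sdiff]; exact ⟨hT hx.1, hx.2⟩)
  refine le_trans ?_ (add_le_add (le_dmax hT1) (le_dmax hT2))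
  unfold dfun
  have hdis : ∀ x ∈ T', x ∉ B' := fun x hx hb => (Finset.disjoint_left.1 hG) (hT' hx) hb
  have e1 : ((T ∩ B') ∪ (T ∩ T')).card + (T' ∪ (T \ B')).card = T.card + T'.card := by
    rw [card_eq_sum (T ∩ B' ∪ T ∩ T'), card_eq_sum (T' ∪ (T \ B')), card_eq_sum T,
      card_eq_sum T', ← Finset.sum_add_distrib, ← Finset.sum_add_distrib]
    apply Finset.sum_congr rfl
    intro x _
    have := hdis x
    simp only [mem_union, mem_inter, mem_sdiff]
    by_cases c1 : x ∈ T <;> by_cases c2 : x ∈ T' <;> by_cases c3 : x ∈ B' <;>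
      simp_all
  have e2 : ((nb N ((T ∩ B') ∪ (T ∩ T')) \ β) \ W).card +
      ((nb N (T' ∪ (T \ B')) \ M) \ insert u W).card ≤
      ((nb N T \ β) \ insert u W).card + ((nb N T' \ M) \ W).card := by
    rw [card_eq_sum (((nb N ((T ∩ B') ∪ (T ∩ T')) \ β) \ W)),
      card_eq_sum ((nb N (T' ∪ (T \ B')) \ M) \ insert u W),
      card_eq_sum ((nb N T \ β) \ insert u W), card_eq_sum ((nb N T' \ M) \ W),
      ← Finset.sum_add_distrib, ← Finset.sum_add_distrib]
    apply Finset.sum_le_sum
    intro v _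
    have n1 : v ∈ nb N ((T ∩ B') ∪ (T ∩ T')) → v ∈ nb N T := fun h => nb_mono (by
      intro x hx
      simp only [mem_union, mem_inter] at hx
      tauto) h
    have n2 : v ∈ nb N ((T ∩ B') ∪ (T ∩ T')) → v ∉ M → v ∈ nb N T' := by
      intro h hM
      rw [mem_nb] at h
      obtain ⟨x, hx, hv⟩ := h
      simp only [mem_union, mem_inter] at hx
      rcases hx with hx | hx
      · exact absurd (hB (mem_nb.2 ⟨x, by simp only [mem_inter]; exact ⟨hT hx.1, hx.2⟩, hv⟩)) hM
      · exact mem_nb.2 ⟨x, hx.2, hv⟩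
    have n3 : v ∈ nb N (T' ∪ (T \ B')) → v ∈ nb N T ∨ v ∈ nb N T' := by
      intro h
      rw [mem_nb] at h
      obtain ⟨x, hx, hv⟩ := h
      simp only [mem_union, mem_sdiff] at hx
      rcases hx with hx | hx
      · exact Or.inr (mem_nb.2 ⟨x, hx, hv⟩)
      · exact Or.inl (mem_nb.2 ⟨x, hx.1, hv⟩)
    have n4 : v ∈ β → v ∈ M := fun h => hβ h
    have n5 : v = u → v ∉ M := fun h => h ▸ huM
    have n6 : v = u → v ∉ W := fun h => h ▸ huW
    simp only [mem_sdiff, mem_insert]
    clear hP hG hB hβ hT hT' hT1 hT2 hdis e1 h1 h2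
    apply ite_four
    · rintro ⟨⟨k1, k2⟩, k3⟩
      by_cases hM : v ∈ M
      · exact Or.inl ⟨⟨n1 k1, k2⟩, fun h => h.elim (fun h => n5 h hM) k3⟩
      · exact Or.inr ⟨⟨n2 k1 hM, hM⟩, k3⟩
    · rintro ⟨⟨k1, k2⟩, k3⟩
      rcases n3 k1 with h | h
      · exact Or.inl ⟨⟨h, fun hb => k2 (n4 hb)⟩, k3⟩
      · exact Or.inr ⟨⟨h, k2⟩, fun hw => k3 (Or.inr hw)⟩
    · rintro ⟨⟨k1, k2⟩, k3⟩ ⟨⟨k4, k5⟩, k6⟩
      exact ⟨⟨⟨n1 k1, k2⟩, k6⟩, ⟨⟨n2 k1 k5, k5⟩, k3⟩⟩
  omega

/-- the elements before `u` in the order given by `e` -/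
def bef {n : ℕ} (e : V ≃ Fin n) (u : V) : Finset V := univ.filter (fun x => e x < e u)

theorem telescope {n : ℕ} (e : V ≃ Fin n) (f : Finset V → ℤ) :
    ∑ u : V, (f (insert u (bef e u)) - f (bef e u)) = f univ - f ∅ := by
  let W : ℕ → Finset V := fun k => univ.filter (fun x => (e x : ℕ) < k)
  have h1 : ∀ u, bef e u = W (e u) := by
    intro u
    ext x
    simp only [bef, W, mem_filter, mem_univ, true_and, Fin.lt_def]
  have h2 : ∀ u, insert u (bef e u) = W ((e u : ℕ) + 1) := by
    intro u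
    ext x
    simp only [bef, W, mem_insert, mem_filter, mem_univ, true_and, Fin.lt_def]
    constructor
    · rintro (h | h)
      · subst h; omega
      · omega
    · intro h
      by_cases h' : (e x : ℕ) = e u
      · left; exact e.injective (Fin.ext h')
      · right; omega
  have h3 : ∑ u : V, (f (insert u (bef e u)) - f (bef e u)) =
      ∑ u : V, (fun k : Fin n => f (W ((k : ℕ) + 1)) - f (W k)) (e u) := by
    apply Finset.sum_congr rfl
    intro u _
    change f (insert u (bef e u)) - f (bef e u) = f (W ((e u : ℕ) + 1)) - f (W (e u))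
    rw [h2 u, h1 u]
  rw [h3, Equiv.sum_comp e (fun k : Fin n => f (W ((k : ℕ) + 1)) - f (W k)),
    Fin.sum_univ_eq_sum_range (fun k => f (W (k + 1)) - f (W k)) n,
    Finset.sum_range_sub (fun k => f (W k)) n]
  have h4 : W n = univ := by
    ext x; simp [W]
  have h5 : W 0 = ∅ := by
    ext x; simp [W]
  rw [h4, h5]

/-- the unused elements of the greedy choice -/
def ex {n : ℕ} (e : V ≃ Fin n) (N : V → Finset V) (G M Q : Finset V) : Finset V :=
  Q.filter (fun u => dmax N G M (insert u (bef e u)) ≤ dmax N G M (bef e u))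

theorem card_ex {n : ℕ} (e : V ≃ Fin n) (N : V → Finset V) (G M Q : Finset V)
    (hQ : nb N G \ M ⊆ Q) :
    ((ex e N G M Q).card : ℤ) = Q.card - G.card + dmax N G M ∅ := by
  have h := telescope e (dmax N G M)
  rw [dmax_univ] at h
  have h1 : ∑ u : V, (dmax N G M (insert u (bef e u)) - dmax N G M (bef e u)) =
      ∑ u : V, ((if u ∈ Q then (1 : ℤ) else 0) - (if u ∈ ex e N G M Q then (1 : ℤ) else 0)) := by
    apply Finset.sum_congr rfl
    intro u _
    have m1 := dmax_mono N G M (bef e u) u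
    have m2 := dmax_succ N G M (bef e u) u
    by_cases hu : u ∈ Q
    · by_cases hx : dmax N G M (insert u (bef e u)) ≤ dmax N G M (bef e u)
      · have : u ∈ ex e N G M Q := by simp [ex, hu, hx]
        simp only [hu, this, if_true]
        omega
      · have : u ∉ ex e N G M Q := by simp [ex, hu, hx]
        simp only [hu, this, if_true, if_false]
        omega
    · have h2 : u ∉ ex e N G M Q := by simp [ex, hu]
      have h3 := dmax_const N G M (bef e u) u (fun h => hu (hQ h))
      simp only [hu, h2, if_false]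
      omega
  rw [h1, Finset.sum_sub_distrib] at h
  have h2 : ∑ u : V, (if u ∈ Q then (1 : ℤ) else 0) = Q.card := by simp
  have h3 : ∑ u : V, (if u ∈ ex e N G M Q then (1 : ℤ) else 0) = (ex e N G M Q).card := by simp
  rw [h2, h3] at h
  omega

/-- (a): row Hall condition for the eroded rows -/
theorem row_hall (N B U : V → Finset V)
    (hR : ∀ z T, T ⊆ U z \ B z → T.card ≤ (nb N T \ nb N (B z)).card)
    (S : Finset V) : ∀ T : Finset V, (∀ s ∈ S, T ⊆ U s) → (∀ y ∈ T, ∃ s ∈ S, y ∉ B s) →
      T.card ≤ ((nb N T).filter (fun v => ∃ s ∈ S, v ∉ nb N (B s))).card := by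
  induction S using Finset.induction_on with
  | empty =>
    intro T _ h2
    have : T = ∅ := by
      apply Finset.eq_empty_of_forall_notMem
      intro y hy
      obtain ⟨s, hs, _⟩ := h2 y hy
      simp at hs
    simp [this]
  | insert s S hs ih =>
    intro T h1 h2
    have k1 := hR s (T \ B s) (by
      intro y hy
      simp only [mem_sdiff] at hy ⊢
      exact ⟨h1 s (Finset.mem_insert_self _ _) hy.1, hy.2⟩)
    have k2 := ih (T ∩ B s) (by
      intro r hr y hy
      simp only [mem_inter] at hy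
      exact h1 r (Finset.mem_insert_of_mem hr) hy.1) (by
      intro y hy
      simp only [mem_inter] at hy
      obtain ⟨r, hr, hyr⟩ := h2 y hy.1
      rw [mem_insert] at hr
      rcases hr with rfl | hr
      · exact absurd hy.2 hyr
      · exact ⟨r, hr, hyr⟩)
    have k3 : T.card = (T \ B s).card + (T ∩ B s).card := by
      rw [Finset.card_sdiff_add_card_inter]
    rw [k3]
    refine le_trans (add_le_add k1 k2) ?_
    rw [← Finset.card_union_of_disjoint]
    · apply Finset.card_le_card
      intro v hv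
      simp only [mem_union, mem_sdiff, mem_filter] at hv ⊢
      rcases hv with ⟨a, b⟩ | ⟨a, r, hr, b⟩
      · exact ⟨nb_mono Finset.sdiff_subset a, s, Finset.mem_insert_self _ _, b⟩
      · exact ⟨nb_mono Finset.inter_subset_left a, r, Finset.mem_insert_of_mem hr, b⟩
    · rw [Finset.disjoint_left]
      intro v hv hv'
      simp only [mem_sdiff, mem_filter] at hv hv'
      exact hv.2 (nb_mono Finset.inter_subset_right hv'.1)

/-- (b): column Hall condition -/
theorem col_hall (N B U : V → Finset V)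
    (hC : ∀ x (T : Finset V), (∀ z ∈ T, x ∈ U z \ B z) →
      T.card ≤ ((nb N T).filter (fun z => x ∈ er N U z)).card)
    (S : Finset V) : ∀ T : Finset V, (∀ z ∈ T, ∃ x ∈ S, x ∈ U z) →
      (∀ z ∈ T, ∀ x ∈ S, x ∉ B z) →
      T.card ≤ ((nb N T).filter (fun z => ∃ x ∈ S, x ∈ er N U z)).card := by
  classical
  induction S using Finset.induction_on with
  | empty =>
    intro T h1 _
    have : T = ∅ := by
      apply Finset.eq_empty_of_forall_notMem
      intro y hy
      obtain ⟨s, hs, _⟩ := h1 y hy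
      simp at hs
    simp [this]
  | insert x S hx ih =>
    intro T h1 h2
    have k2 := ih (T.filter (fun z => ∃ y ∈ S, y ∈ U z)) (by
      intro z hz
      exact (mem_filter.1 hz).2) (by
      intro z hz y hy
      exact h2 z (mem_filter.1 hz).1 y (Finset.mem_insert_of_mem hy))
    have k1 := hC x (T.filter (fun z => ¬ ∃ y ∈ S, y ∈ U z)) (by
      intro z hz
      obtain ⟨hz1, hz2⟩ := mem_filter.1 hz
      obtain ⟨y, hy, hyU⟩ := h1 z hz1
      rw [mem_insert] at hy
      rcases hy with rfl | hy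
      · exact mem_sdiff.2 ⟨hyU, h2 z hz1 y (Finset.mem_insert_self _ _)⟩
      · exact absurd ⟨y, hy, hyU⟩ hz2)
    have k3 := Finset.card_filter_add_card_filter_not (s := T) (fun z => ∃ y ∈ S, y ∈ U z)
    rw [← k3]
    refine le_trans (add_le_add k2 k1) ?_
    rw [← Finset.card_union_of_disjoint]
    · apply Finset.card_le_card
      intro v hv
      simp only [mem_union, mem_filter] at hv
      rcases hv with ⟨a, r, hr, b⟩ | ⟨a, b⟩
      · exact mem_filter.2 ⟨nb_mono (Finset.filter_subset _ _) a, r,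
          Finset.mem_insert_of_mem hr, b⟩
      · exact mem_filter.2 ⟨nb_mono (Finset.filter_subset _ _) a, x,
          Finset.mem_insert_self _ _, b⟩
    · rw [Finset.disjoint_left]
      intro v hv hv'
      obtain ⟨_, r, hr, b⟩ := mem_filter.1 hv
      obtain ⟨a', _⟩ := mem_filter.1 hv'
      obtain ⟨z, hz, hvz⟩ := mem_nb.1 a'
      exact (mem_filter.1 hz).2 ⟨r, hr, mem_er.1 b z hvz⟩

theorem subset_er_sdiff (N B U : V → Finset V) (z z' : V) (h : z ∈ N z') :
    (er N U z \ er N B z) \ B z' ⊆ U z' \ B z' := by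
  intro y hy
  simp only [mem_sdiff] at hy ⊢
  exact ⟨mem_er.1 hy.1.1 z' h, hy.2⟩

/-- **The gap inequality** -/
theorem gap (N B U : V → Finset V)
    (hR : ∀ z T, T ⊆ U z \ B z → T.card ≤ (nb N T \ nb N (B z)).card)
    (hC : ∀ x (T : Finset V), (∀ z ∈ T, x ∈ U z \ B z) →
      T.card ≤ ((nb N T).filter (fun z => x ∈ er N U z)).card) :
    ∑ z, (er N U z \ er N B z).card + ∑ z, (nb N (U z) \ nb N (B z)).card ≤
      ∑ z, (nb N (er N U z) \ er N (fun s => nb N (B s)) z).card + ∑ z, (U z \ B z).card := by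
  classical
  obtain ⟨n, ⟨e⟩⟩ : ∃ n, Nonempty (V ≃ Fin n) := ⟨_, ⟨Fintype.equivFin V⟩⟩
  -- notation
  set P : V → Finset V := fun z => er N U z \ er N B z with hP
  set β : V → Finset V := fun z => er N (fun s => nb N (B s)) z with hβ
  set K : V → Finset V := fun z => nb N (er N U z) \ β z with hK
  set G : V → Finset V := fun z => U z \ B z with hG
  set Q : V → Finset V := fun z => nb N (U z) \ nb N (B z) with hQ
  set E1 : V → Finset V := fun z => ex e N (P z) (β z) (K z) with hE1
  set E2 : V → Finset V := fun z => ex e N (G z) (nb N (B z)) (Q z) with hE2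
  -- row Hall
  have hrow : ∀ z T, T ⊆ P z → T.card ≤ (nb N T \ β z).card := by
    intro z T hT
    have := row_hall N B U hR (univ.filter (fun s => z ∈ N s)) T (by
      intro s hs y hy
      exact mem_er.1 (mem_sdiff.1 (hT hy)).1 s (mem_filter.1 hs).2) (by
      intro y hy
      have h2 := (mem_sdiff.1 (hT hy)).2
      rw [mem_er] at h2
      push Not at h2
      obtain ⟨s, hs, hy⟩ := h2
      exact ⟨s, by simp [hs], hy⟩)
    refine le_trans this (Finset.card_le_card ?_)
    intro v hv
    obtain ⟨h1, s, hs, h2⟩ := mem_filter.1 hv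
    refine mem_sdiff.2 ⟨h1, ?_⟩
    intro h3
    exact h2 (mem_er.1 h3 s (mem_filter.1 hs).2)
  -- cards
  have c1 : ∀ z, ((E1 z).card : ℤ) = (K z).card - (P z).card := by
    intro z
    have := card_ex e N (P z) (β z) (K z) (by
      intro v hv
      obtain ⟨h1, h2⟩ := mem_sdiff.1 hv
      exact mem_sdiff.2 ⟨nb_mono Finset.sdiff_subset h1, h2⟩)
    rw [dmax_empty_zero N (P z) (β z) (hrow z)] at this
    simpa [hE1] using this
  have c2 : ∀ z, ((Q z).card : ℤ) - (G z).card ≤ ((E2 z).card : ℤ) := by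
    intro z
    have := card_ex e N (G z) (nb N (B z)) (Q z) (by
      intro v hv
      obtain ⟨h1, h2⟩ := mem_sdiff.1 hv
      exact mem_sdiff.2 ⟨nb_mono Finset.sdiff_subset h1, h2⟩)
    have h0 := dmax_empty_nonneg N (G z) (nb N (B z)) ∅
    simp only [hE2]
    omega
  -- exchange
  have hex : ∀ z z' u, z ∈ N z' → u ∈ E2 z' → u ∈ K z → u ∈ E1 z := by
    intro z z' u hz hu hk
    obtain ⟨hu1, hu2⟩ := mem_filter.1 hu
    refine mem_filter.2 ⟨hk, ?_⟩
    have := dmax_exch N (P z) (G z') (B z') (β z) (nb N (B z')) (bef e u) u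
      (subset_er_sdiff N B U z z' hz) Finset.sdiff_disjoint
      (nb_mono Finset.inter_subset_right) (by
        intro v hv
        exact mem_er.1 hv z' hz) (mem_sdiff.1 hu1).2 (by simp [bef])
    omega
  -- columns
  have hcol : ∀ u, (univ.filter (fun z' => u ∈ E2 z')).card ≤
      (univ.filter (fun z => u ∈ E1 z)).card := by
    intro u
    set T : Finset V := univ.filter (fun z' => u ∈ E2 z') with hT
    have hTQ : ∀ z ∈ T, u ∈ Q z := by
      intro z hz
      exact (mem_filter.1 (mem_filter.1 hz).2).1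
    have := col_hall N B U hC (univ.filter (fun x => u ∈ N x)) T (by
      intro z hz
      obtain ⟨x, hx, hux⟩ := mem_nb.1 (mem_sdiff.1 (hTQ z hz)).1
      exact ⟨x, by simp [hux], hx⟩) (by
      intro z hz x hx hxB
      exact (mem_sdiff.1 (hTQ z hz)).2 (mem_nb.2 ⟨x, hxB, (mem_filter.1 hx).2⟩))
    refine le_trans this (Finset.card_le_card ?_)
    intro z hz
    obtain ⟨h1, x, hx, h2⟩ := mem_filter.1 hz
    obtain ⟨z', hz', hzz⟩ := mem_nb.1 h1
    have hk : u ∈ K z := by
      refine mem_sdiff.2 ⟨mem_nb.2 ⟨x, h2, (mem_filter.1 hx).2⟩, ?_⟩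
      intro h3
      exact (mem_sdiff.1 (hTQ z' hz')).2 (mem_er.1 h3 z' hzz)
    exact mem_filter.2 ⟨mem_univ _, hex z z' u hzz (mem_filter.1 hz').2 hk⟩
  -- double count
  have dc : ∀ E : V → Finset V, ∑ u : V, (univ.filter (fun z => u ∈ E z)).card =
      ∑ z : V, (E z).card := by
    intro E
    have : ∀ z : V, (E z).card = ∑ u : V, if u ∈ E z then 1 else 0 := by
      intro z; simp
    simp_rw [this]
    rw [Finset.sum_comm]
    apply Finset.sum_congr rfl
    intro u _
    rw [Finset.card_filter]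
  have h1 : ∑ z, (E2 z).card ≤ ∑ z, (E1 z).card := by
    rw [← dc E2, ← dc E1]
    exact Finset.sum_le_sum (fun u _ => hcol u)
  have h2 : ∑ z, ((E1 z).card : ℤ) = ∑ z, ((K z).card : ℤ) - ∑ z, ((P z).card : ℤ) := by
    rw [← Finset.sum_sub_distrib]
    exact Finset.sum_congr rfl (fun z _ => c1 z)
  have h3 : ∑ z, ((Q z).card : ℤ) - ∑ z, ((G z).card : ℤ) ≤ ∑ z, ((E2 z).card : ℤ) := by
    rw [← Finset.sum_sub_distrib]
    exact Finset.sum_le_sum (fun z _ => c2 z)
  have h4 : ∑ z, ((E2 z).card : ℤ) ≤ ∑ z, ((E1 z).card : ℤ) := by exact_mod_cast h1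
  have h5 : ∑ z, ((P z).card : ℤ) + ∑ z, ((Q z).card : ℤ) ≤
      ∑ z, ((K z).card : ℤ) + ∑ z, ((G z).card : ℤ) := by linarith
  exact_mod_cast h5

end P038.H162
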